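import Mathlib
import Vale.Agent.P219.Defs

/-!
# Compactness of sets of locally bounded perimeter
-/

open MeasureTheory Filter Topology Metric
open scoped ENNReal ContDiff

namespace Vale.Agent.P219.Univ.Exist

open Vale.Agent.P219

noncomputable section

variable {n : ℕ}

/-- The indicator function of a set. -/
def ind (E : Set (Space n)) : Space n → ℝ := E.indicator fun _ => 1

lemma ind_mem (E : Set (Space n)) (x : Space n) : ind E x = 0 ∨ ind E x = 1 :=
  (Set.indicator_eq_zero_or_self E (fun _ => (1 : ℝ)) x)

lemma ind_nonneg (E : Set (Space n)) (x : Space n) : 0 ≤ ind E x := by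
  rcases ind_mem E x with h | h <;> simp [h]

lemma ind_le_one (E : Set (Space n)) (x : Space n) : ind E x ≤ 1 := by
  rcases ind_mem E x with h | h <;> simp [h]

lemma abs_ind_sub_le (E F : Set (Space n)) (x y : Space n) : |ind E x - ind F y| ≤ 1 := by
  rw [abs_le]
  constructor <;> linarith [ind_nonneg E x, ind_le_one E x, ind_nonneg F y, ind_le_one F y]

lemma measurable_ind {E : Set (Space n)} (hE : MeasurableSet E) : Measurable (ind E) :=
  measurable_const.indicator hE

/-- The perimeter of `E` in every ball is controlled by `C`. -/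
def BVBound (E : Set (Space n)) (R C : ℝ) : Prop :=
  0 ≤ C ∧ ∀ Φ : Space n → Space n, ContDiff ℝ 1 Φ → tsupport Φ ⊆ closedBall 0 R →
    (∀ x, ‖Φ x‖ ≤ 1) → ∫ x in E, divg Φ x ≤ C

lemma divg_smul_const {ψ : Space n → ℝ} {x : Space n} (hψ : DifferentiableAt ℝ ψ x)
    (v : Space n) : divg (fun y => ψ y • v) x = fderiv ℝ ψ x v := by
  unfold divg pd
  have h : ∀ i, fderiv ℝ (fun y => (ψ y • v) i) x (EuclideanSpace.single i 1)
      = v i * fderiv ℝ ψ x (EuclideanSpace.single i 1) := fun i => by
    have e : (fun y => (ψ y • v) i) = fun y => ψ y * v i := rfl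
    rw [e, fderiv_mul_const hψ]
    simp
  simp only [h]
  conv_rhs => rw [← (EuclideanSpace.basisFun (Fin n) ℝ).sum_repr v, map_sum]
  refine Finset.sum_congr rfl fun i _ => ?_
  simp

/-- Translations against a test function. -/
lemma trans_test {E : Set (Space n)} (hE : MeasurableSet E) {R C : ℝ}
    (hC : BVBound E (R + 2) C) {h : Space n} (hh : ‖h‖ ≤ 1) {φ : Space n → ℝ}
    (hφ : ContDiff ℝ 1 φ) (hs : tsupport φ ⊆ closedBall 0 (R + 1)) (hb : ∀ x, |φ x| ≤ 1) :
    ∫ x, (ind E (x + h) - ind E x) * φ x ≤ C * ‖h‖ := by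
  rcases eq_or_ne h 0 with rfl | hne
  · simp
  have hc : HasCompactSupport φ :=
    (isCompact_closedBall (0 : Space n) (R + 1)).of_isClosed_subset (isClosed_tsupport φ) hs
  have hφi : Integrable φ := hφ.continuous.integrable_of_hasCompactSupport hc
  have hmi : ∀ z, Integrable fun x => ind E (x + z) * φ x := fun z => by
    refine hφi.bdd_mul (c := 1) ((measurable_ind hE).comp (measurable_id.add_const z)).aestronglyMeasurable
      (Eventually.of_forall fun x => ?_)
    rw [Real.norm_eq_abs, abs_of_nonneg (ind_nonneg E _)]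
    exact ind_le_one E _
  have hphi' : Integrable fun x => φ (x - h) := hφi.comp_sub_right h
  have e1 : ∫ x, (ind E (x + h) - ind E x) * φ x = ∫ y in E, (φ (y - h) - φ y) := by
    simp only [sub_mul]
    rw [integral_sub (hmi h) (by simpa using hmi 0), integral_sub hphi'.integrableOn hφi.integrableOn,
      ← integral_indicator hE, ← integral_indicator hE,
      ← integral_add_right_eq_self (fun y => E.indicator (fun y => φ (y - h)) y) h]
    congr 1 <;> refine integral_congr_ae (Eventually.of_forall fun x => ?_)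
    · by_cases hx : x + h ∈ E <;> simp [ind, hx]
    · by_cases hx : x ∈ E <;> simp [ind, hx]
  set G : Space n → ℝ → ℝ := fun y s => fderiv ℝ φ (y - s • h) (-h) with hG
  have hGc : Continuous (Function.uncurry G) := by
    simp only [hG, Function.uncurry_def]
    exact ((hφ.continuous_fderiv one_ne_zero).comp (by fun_prop)).clm_apply continuous_const
  have e2 : ∀ y, φ (y - h) - φ y = ∫ s in Set.Ioc (0 : ℝ) 1, G y s := fun y => by
    rw [← intervalIntegral.integral_of_le zero_le_one, intervalIntegral.integral_eq_sub_of_hasDerivAt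
      (f := fun s => φ (y - s • h)) (f' := G y) (fun s _ => ?_)
      (show IntervalIntegrable (G y) volume 0 1 from
        (hGc.comp (Continuous.prodMk_right y)).intervalIntegrable 0 1)]
    · simp
    · have h1 : HasDerivAt (fun s : ℝ => y - s • h) (-h) s := by
        simpa using ((hasDerivAt_id s).smul_const h).const_sub y
      exact ((hφ.differentiable one_ne_zero) _).hasFDerivAt.comp_hasDerivAt s h1
  have hsupp : ∀ y : Space n, ∀ s ∈ Set.Icc (0 : ℝ) 1, G y s ≠ 0 → y ∈ closedBall 0 (R + 2) := by
    intro y s hs' hne'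
    have : fderiv ℝ φ (y - s • h) ≠ 0 := fun h0 => hne' (by simp [hG, h0])
    have h1 := hs (support_fderiv_subset ℝ this)
    rw [mem_closedBall, dist_zero_right] at h1 ⊢
    have h2 : ‖y‖ ≤ ‖y - s • h‖ + ‖s • h‖ := norm_le_norm_sub_add y (s • h)
    rw [norm_smul, Real.norm_of_nonneg hs'.1] at h2
    nlinarith [norm_nonneg h, hs'.2]
  have hint : Integrable (Function.uncurry G)
      ((volume.restrict E).prod (volume.restrict (Set.Ioc (0 : ℝ) 1))) := by
    rw [Measure.prod_restrict]
    have h1 : IntegrableOn (Function.uncurry G) (closedBall (0 : Space n) (R + 2) ×ˢ Set.Icc (0 : ℝ) 1)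
        (volume.prod volume) :=
      hGc.continuousOn.integrableOn_compact ((isCompact_closedBall _ _).prod isCompact_Icc)
    refine h1.of_forall_sdiff_eq_zero (hE.prod measurableSet_Ioc) fun z hz => ?_
    by_contra hne'
    exact hz.2 ⟨hsupp z.1 z.2 (Set.Ioc_subset_Icc_self hz.1.2) hne',
      Set.Ioc_subset_Icc_self hz.1.2⟩
  rw [e1, setIntegral_congr_fun hE fun y _ => e2 y, integral_integral_swap hint]
  have hb2 : ∀ s ∈ Set.Ioc (0 : ℝ) 1, ∫ y in E, G y s ≤ C * ‖h‖ := fun s hs' => by
    set Φ : Space n → Space n := fun y => φ (y - s • h) • (-(‖h‖⁻¹ • h)) with hΦ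
    have hd : Differentiable ℝ fun y => φ (y - s • h) :=
      (hφ.differentiable one_ne_zero).comp (differentiable_id.sub_const _)
    have e : ∀ y, G y s = ‖h‖ * divg Φ y := fun y => by
      rw [hΦ, divg_smul_const (hd y), fderiv_comp_sub, hG]
      simp only [map_neg, map_smul, smul_eq_mul]
      have : ‖h‖ ≠ 0 := norm_ne_zero_iff.2 hne
      field_simp
    have hb3 := hC.2 Φ ((hφ.comp (contDiff_id.sub contDiff_const)).smul contDiff_const)
      (closure_minimal (fun y hy => by
        have h1 : φ (y - s • h) ≠ 0 := fun h0 => hy (by simp [hΦ, h0])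
        have h2 := hs (subset_tsupport φ h1)
        rw [mem_closedBall, dist_zero_right] at h2 ⊢
        have h3 : ‖y‖ ≤ ‖y - s • h‖ + ‖s • h‖ := norm_le_norm_sub_add y (s • h)
        rw [norm_smul, Real.norm_of_nonneg hs'.1.le] at h3
        nlinarith [norm_nonneg h, hs'.2]) isClosed_closedBall) fun y => by
        rw [hΦ, norm_smul, norm_neg, norm_smul, norm_inv, norm_norm,
          inv_mul_cancel₀ (norm_ne_zero_iff.2 hne), mul_one]
        exact hb _
    simp only [e]
    rw [integral_const_mul, mul_comm C]
    exact mul_le_mul_of_nonneg_left hb3 (norm_nonneg h)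
  refine (setIntegral_mono_on (hint.integral_prod_right) (integrableOn_const (by simp))
    measurableSet_Ioc hb2).trans_eq ?_
  simp

/-- The translation bound. -/
theorem trans_bound {E : Set (Space n)} (hE : MeasurableSet E) {R C : ℝ} (hR : 0 < R)
    (hC : BVBound E (R + 2) C) {h : Space n} (hh : ‖h‖ ≤ 1) :
    ∫ x in closedBall 0 R, |ind E (x + h) - ind E x| ≤ C * ‖h‖ := by
  set D : Space n → ℝ := fun x => ind E (x + h) - ind E x with hD
  set u : Space n → ℝ := (closedBall 0 R).indicator D with hu
  have hDm : Measurable D :=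
    ((measurable_ind hE).comp (measurable_id.add_const h)).sub (measurable_ind hE)
  have hum : MemLp u 1 volume := by
    rw [memLp_one_iff_integrable, hu, integrable_indicator_iff measurableSet_closedBall]
    exact (integrableOn_const (C := (1 : ℝ)) measure_closedBall_lt_top.ne).mono'
      hDm.aestronglyMeasurable (Eventually.of_forall fun x => abs_ind_sub_le E E _ _)
  refine le_of_forall_pos_le_add fun e he => ?_
  obtain ⟨g, hg1, hg2, hg3⟩ := hum.exist_eLpNorm_sub_le ENNReal.one_ne_top le_rfl
    (div_pos he Real.pi_pos)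
  have hgi : Integrable g := hg2.continuous.integrable_of_hasCompactSupport hg1
  have hui : Integrable u := memLp_one_iff_integrable.1 hum
  have hg3' : ∫ x, ‖(u - g) x‖ ≤ e / Real.pi := by
    rw [eLpNorm_one_eq_lintegral_enorm, ← ofReal_integral_norm_eq_lintegral_enorm (hui.sub hgi)]
      at hg3
    exact (ENNReal.ofReal_le_ofReal_iff (by positivity)).1 hg3
  let χ : ContDiffBump (0 : Space n) := ⟨R, R + 1, hR, by linarith⟩
  set φ : Space n → ℝ := fun x => χ x * Real.sin (Real.pi / 2 * g x) with hφ
  have hφc : ContDiff ℝ 1 φ :=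
    χ.contDiff.mul ((Real.contDiff_sin.of_le le_top).comp
      (contDiff_const.mul (hg2.of_le (by norm_num))))
  have hφs : tsupport φ ⊆ closedBall 0 (R + 1) := by
    refine (tsupport_mul_subset_left).trans ?_
    rw [χ.tsupport_eq]
  have hφb : ∀ x, |φ x| ≤ 1 := fun x => by
    rw [hφ, abs_mul, abs_of_nonneg χ.nonneg]
    exact mul_le_one₀ χ.le_one (abs_nonneg _) (Real.abs_sin_le_one _)
  have hkey : ∀ x, (closedBall 0 R).indicator (fun x => |D x|) x
      - Real.pi / 2 * ‖(u - g) x‖ ≤ D x * φ x := fun x => by
    have hlip : |Real.sin (Real.pi / 2 * u x) - Real.sin (Real.pi / 2 * g x)|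
        ≤ Real.pi / 2 * ‖(u - g) x‖ := by
      refine (Real.abs_sin_sub_sin_le _ _).trans_eq ?_
      rw [← mul_sub, abs_mul, abs_of_pos (by positivity : (0 : ℝ) < Real.pi / 2)]
      rfl
    have hχu : χ x * Real.sin (Real.pi / 2 * u x) * D x
        = (closedBall 0 R).indicator (fun x => |D x|) x := by
      by_cases hx : x ∈ closedBall (0 : Space n) R
      · rw [χ.one_of_mem_closedBall hx, hu, Set.indicator_of_mem hx, Set.indicator_of_mem hx]
        have : D x = -1 ∨ D x = 0 ∨ D x = 1 := by
          rcases ind_mem E (x + h) with h1 | h1 <;> rcases ind_mem E x with h2 | h2 <;>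
            simp [hD, h1, h2]
        rcases this with h1 | h1 | h1 <;> rw [h1] <;> simp [Real.sin_pi_div_two]
      · simp [hu, Set.indicator_of_notMem hx]
    rw [← hχu, hφ]
    have h1 : |χ x * (Real.sin (Real.pi / 2 * u x) - Real.sin (Real.pi / 2 * g x)) * D x|
        ≤ Real.pi / 2 * ‖(u - g) x‖ := by
      rw [abs_mul, abs_mul, abs_of_nonneg χ.nonneg]
      calc χ x * |Real.sin (Real.pi / 2 * u x) - Real.sin (Real.pi / 2 * g x)| * |D x|
          ≤ 1 * (Real.pi / 2 * ‖(u - g) x‖) * 1 :=
            mul_le_mul (mul_le_mul χ.le_one hlip (abs_nonneg _) zero_le_one)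
              (abs_ind_sub_le E E _ _) (abs_nonneg _) (by positivity)
        _ = _ := by ring
    nlinarith [(abs_le.1 h1).2]
  have hφi : Integrable φ := hφc.continuous.integrable_of_hasCompactSupport
    ((isCompact_closedBall (0 : Space n) (R + 1)).of_isClosed_subset (isClosed_tsupport φ) hφs)
  have hDφ : Integrable fun x => D x * φ x :=
    hφi.bdd_mul (c := 1) hDm.aestronglyMeasurable
      (Eventually.of_forall fun x => abs_ind_sub_le E E _ _)
  have hBi : Integrable ((closedBall (0 : Space n) R).indicator fun x => |D x|) := by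
    rw [integrable_indicator_iff measurableSet_closedBall]
    exact ((integrable_indicator_iff measurableSet_closedBall).1 hui).abs
  have hb : Integrable fun x => Real.pi / 2 * ‖(u - g) x‖ := (hui.sub hgi).norm.const_mul _
  have hmono : ∫ x, (closedBall (0 : Space n) R).indicator (fun x => |D x|) x
      - Real.pi / 2 * ‖(u - g) x‖ ≤ ∫ x, D x * φ x := integral_mono (hBi.sub hb) hDφ hkey
  rw [integral_sub hBi hb, integral_indicator measurableSet_closedBall, integral_const_mul] at hmono
  have := trans_test hE hC hh hφc hφs hφb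
  have h2 : Real.pi / 2 * ∫ x, ‖(u - g) x‖ ≤ Real.pi / 2 * (e / Real.pi) :=
    mul_le_mul_of_nonneg_left hg3' (by positivity)
  rw [show Real.pi / 2 * (e / Real.pi) = e / 2 by field_simp] at h2
  linarith

/-- A fixed mollifier of width at most `1 / (m + 1)`. -/
def moll (n m : ℕ) : ContDiffBump (0 : Space n) :=
  ⟨1 / (2 * ((m : ℝ) + 1)), 1 / ((m : ℝ) + 1), by positivity, by
    refine one_div_lt_one_div_of_lt (by positivity) ?_
    have : (0 : ℝ) < (m : ℝ) + 1 := by positivity
    linarith⟩

/-- The mollified indicator. -/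
def smooth (E : Set (Space n)) (m : ℕ) (x : Space n) : ℝ :=
  ∫ y, (moll n m).normed volume (y - x) * ind E y

lemma smooth_integrand {E : Set (Space n)} (hE : MeasurableSet E) (m : ℕ) (x : Space n) :
    Integrable fun y => (moll n m).normed volume (y - x) * ind E y :=
  ((moll n m).integrable_normed.comp_sub_right x).mul_bdd (c := 1)
    (measurable_ind hE).aestronglyMeasurable (Eventually.of_forall fun y => by
      rw [Real.norm_eq_abs, abs_of_nonneg (ind_nonneg E y)]; exact ind_le_one E y)

lemma smooth_mem {E : Set (Space n)} (hE : MeasurableSet E) (m : ℕ) (x : Space n) :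
    smooth E m x ∈ Set.Icc (0 : ℝ) 1 := by
  refine ⟨integral_nonneg fun y => mul_nonneg ((moll n m).nonneg_normed _) (ind_nonneg E y), ?_⟩
  calc smooth E m x ≤ ∫ y, (moll n m).normed volume (y - x) :=
        integral_mono (smooth_integrand hE m x) ((moll n m).integrable_normed.comp_sub_right x)
          fun y => mul_le_of_le_one_right ((moll n m).nonneg_normed _) (ind_le_one E y)
    _ = 1 := by
        rw [integral_sub_right_eq_self (fun y => (moll n m).normed volume y) x]
        exact (moll n m).integral_normed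

/-- The mollified indicators are equicontinuous. -/
lemma smooth_equicont (n m : ℕ) : ∃ L : ℝ, ∀ (E : Set (Space n)), MeasurableSet E →
    ∀ x q, |smooth E m x - smooth E m q| ≤ L * dist x q := by
  set φ : Space n → ℝ := (moll n m).normed volume with hφ
  have hc : HasCompactSupport φ := (moll n m).hasCompactSupport_normed
  obtain ⟨L, hL⟩ :=
    (moll n m).contDiff_normed.lipschitzWith_of_hasCompactSupport hc (n := 1) one_ne_zero
  set r : ℝ := 1 / ((m : ℝ) + 1) with hr
  set V : ℝ := (volume : Measure (Space n)).real (closedBall 0 r) with hV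
  refine ⟨L * (2 * V), fun E hE x q => ?_⟩
  rw [smooth, smooth, ← integral_sub (smooth_integrand hE m x) (smooth_integrand hE m q)]
  have hsupp : ∀ (z y : Space n), y ∉ closedBall z r → φ (y - z) = 0 := fun z y hy => by
    refine image_eq_zero_of_notMem_tsupport fun h => hy ?_
    rw [hφ, ContDiffBump.tsupport_normed_eq, mem_closedBall, dist_zero_right] at h
    rw [mem_closedBall, dist_eq_norm]
    exact h
  set S := closedBall x r ∪ closedBall q r with hS
  have hSm : MeasurableSet S := measurableSet_closedBall.union measurableSet_closedBall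
  have hSf : volume S ≠ ⊤ :=
    ((isCompact_closedBall x r).union (isCompact_closedBall q r)).measure_lt_top.ne
  have hpt : ∀ y, ‖φ (y - x) * ind E y - φ (y - q) * ind E y‖
      ≤ S.indicator (fun _ => (L : ℝ) * dist x q) y := fun y => by
    rw [← sub_mul, norm_mul]
    refine (mul_le_of_le_one_right (norm_nonneg _) ?_).trans ?_
    · rw [Real.norm_eq_abs, abs_of_nonneg (ind_nonneg E y)]; exact ind_le_one E y
    by_cases hy : y ∈ S
    · rw [Set.indicator_of_mem hy]
      refine (hL.dist_le_mul (y - x) (y - q)).trans_eq ?_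
      rw [dist_sub_left]
    · rw [Set.indicator_of_notMem hy, hsupp x y fun h => hy (Or.inl h),
        hsupp q y fun h => hy (Or.inr h), sub_zero, norm_zero]
  refine (norm_integral_le_of_norm_le ((integrable_indicator_iff hSm).2 (integrableOn_const hSf))
    (Eventually.of_forall hpt)).trans ?_
  rw [integral_indicator hSm, setIntegral_const, smul_eq_mul]
  have h2 : (volume : Measure (Space n)).real S ≤ 2 * V := by
    refine (measureReal_union_le _ _).trans_eq ?_
    simp only [hV, measureReal_def, Measure.addHaar_closedBall_center]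
    ring
  calc (volume : Measure (Space n)).real S * (L * dist x q) ≤ 2 * V * (L * dist x q) :=
        mul_le_mul_of_nonneg_right h2 (by positivity)
    _ = _ := by ring

/-- The mollified indicator is close to the indicator. -/
lemma smooth_close {E : Set (Space n)} (hE : MeasurableSet E) {R C : ℝ} (hR : 0 < R)
    (hC : BVBound E (R + 2) C) (m : ℕ) :
    ∫ x in closedBall 0 R, |smooth E m x - ind E x| ≤ C * (1 / ((m : ℝ) + 1)) := by
  set φ : Space n → ℝ := (moll n m).normed volume with hφ
  set B := closedBall (0 : Space n) R with hB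
  have hφi : Integrable φ := (moll n m).integrable_normed
  have hfin : IsFiniteMeasure (volume.restrict B) :=
    ⟨by rw [Measure.restrict_apply_univ]; exact measure_closedBall_lt_top⟩
  set G : Space n × Space n → ℝ := fun z => φ z.2 * |ind E (z.1 + z.2) - ind E z.1| with hG
  have hGi : Integrable G ((volume.restrict B).prod volume) := by
    refine ((integrable_const (1 : ℝ)).mul_prod hφi).mono'
      ((hφi.1.comp_snd.mul ?_)) (Eventually.of_forall fun z => ?_)
    · exact ((((measurable_ind hE).comp (measurable_fst.add measurable_snd)).sub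
        ((measurable_ind hE).comp measurable_fst)).norm).aestronglyMeasurable
    · rw [hG, norm_mul, Real.norm_of_nonneg ((moll n m).nonneg_normed _), norm_abs_eq_norm,
        one_mul]
      exact mul_le_of_le_one_right ((moll n m).nonneg_normed _) (abs_ind_sub_le E E _ _)
  have hswap := integral_integral_swap (f := fun x h => G (x, h)) hGi
  have hpt : ∀ x, |smooth E m x - ind E x| ≤ ∫ h, G (x, h) := fun x => by
    have e1 : smooth E m x = ∫ h, φ h * ind E (x + h) := by
      rw [smooth, ← integral_add_left_eq_self _ x]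
      simp [hφ]
    have e2 : ind E x = ∫ h, φ h * ind E x := by
      rw [integral_mul_const, (moll n m).integral_normed, one_mul]
    have hi : Integrable fun h => φ h * ind E (x + h) :=
      hφi.mul_bdd (c := 1) ((measurable_ind hE).comp (measurable_const_add x)).aestronglyMeasurable
        (Eventually.of_forall fun h => by
          rw [Real.norm_eq_abs, abs_of_nonneg (ind_nonneg E _)]; exact ind_le_one E _)
    rw [e1]
    nth_rewrite 1 [e2]
    rw [← integral_sub hi (hφi.mul_const _)]
    refine abs_integral_le_integral_abs.trans_eq (integral_congr_ae (Eventually.of_forall fun h => ?_))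
    show |φ h * ind E (x + h) - φ h * ind E x| = φ h * |ind E (x + h) - ind E x|
    rw [← mul_sub, abs_mul, abs_of_nonneg ((moll n m).nonneg_normed h)]
  refine (integral_mono_of_nonneg (Eventually.of_forall fun x => abs_nonneg _)
    hGi.integral_prod_left (Eventually.of_forall hpt)).trans ?_
  rw [hswap]
  have hpt2 : ∀ h, ∫ x in B, G (x, h) ≤ C * (1 / ((m : ℝ) + 1)) * φ h := fun h => by
    simp only [hG]
    rw [integral_const_mul, mul_comm (C * _)]
    by_cases hh : h ∈ closedBall (0 : Space n) (1 / ((m : ℝ) + 1))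
    · rw [mem_closedBall, dist_zero_right] at hh
      refine mul_le_mul_of_nonneg_left ((trans_bound hE hR hC (hh.trans ?_)).trans
        (mul_le_mul_of_nonneg_left hh hC.1)) ((moll n m).nonneg_normed h)
      rw [div_le_one (by positivity)]
      simp
    · rw [show φ h = 0 from image_eq_zero_of_notMem_tsupport (by
        rw [hφ, ContDiffBump.tsupport_normed_eq]; exact hh), zero_mul, zero_mul]
  refine (integral_mono hGi.integral_prod_right (hφi.const_mul _) hpt2).trans_eq ?_
  rw [integral_const_mul, (moll n m).integral_normed, mul_one]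

/-- Compactness of sets of locally bounded perimeter. -/
theorem exists_limit_set (E : ℕ → Set (Space n)) (hE : ∀ k, MeasurableSet (E k))
    (hb : ∀ R, ∃ C, ∀ k, BVBound (E k) R C) :
    ∃ (σ : ℕ → ℕ) (S : Set (Space n)), StrictMono σ ∧ MeasurableSet S ∧
      ∀ᵐ x, ∀ᶠ k in atTop, ind (E (σ k)) x = ind S x := by
  classical
  set q : ℕ → Space n := TopologicalSpace.denseSeq (Space n) with hq
  set v : ℕ → ℕ × ℕ → ℝ := fun k i => smooth (E k) i.1 (q i.2) with hv
  obtain ⟨a, -, σ₀, hσ₀, ha⟩ :=
    (isCompact_univ_pi fun _ : ℕ × ℕ => isCompact_Icc (a := (0 : ℝ)) (b := 1)).tendsto_subseq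
      (x := v) fun k => fun i _ => smooth_mem (hE k) i.1 (q i.2)
  rw [tendsto_pi_nhds] at ha
  have hlim : ∀ m x, ∃ l, Tendsto (fun k => smooth (E (σ₀ k)) m x) atTop (𝓝 l) := by
    intro m x
    refine cauchySeq_tendsto_of_complete ?_
    rw [Metric.cauchySeq_iff]
    intro e he
    obtain ⟨L, hL⟩ := smooth_equicont n m
    obtain ⟨j, hj⟩ := (TopologicalSpace.denseRange_denseSeq (Space n)).exists_dist_lt x
      (show (0 : ℝ) < e / (3 * (|L| + 1)) by positivity)
    obtain ⟨N, hN⟩ := Metric.cauchySeq_iff.1 (ha (m, j)).cauchySeq (e / 3) (by positivity)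
    refine ⟨N, fun i hi k hk => ?_⟩
    have h3 := hN i hi k hk
    simp only [hv, Function.comp_def, Real.dist_eq] at h3 ⊢
    have hd : ∀ l, |smooth (E (σ₀ l)) m x - smooth (E (σ₀ l)) m (q j)| < e / 3 := fun l => by
      refine (hL _ (hE _) x (q j)).trans_lt ?_
      rw [lt_div_iff₀ (by positivity)] at hj
      calc L * dist x (q j) ≤ (|L| + 1) * dist x (q j) :=
            mul_le_mul_of_nonneg_right (le_add_of_le_of_nonneg (le_abs_self L) zero_le_one)
              dist_nonneg
        _ < e / 3 := by rw [hq]; linarith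
    have e1 := abs_lt.1 (hd i)
    have e2 := abs_lt.1 (hd k)
    have e3 := abs_lt.1 h3
    rw [abs_lt]
    constructor <;> linarith
  choose G hG using hlim
  set f : ℕ → Space n → ℝ := fun k => ind (E (σ₀ k)) with hf
  have hfint : ∀ (r : ℝ) (j k : ℕ), IntegrableOn (fun x => |f j x - f k x|) (closedBall 0 r) :=
    fun r j k => (integrableOn_const (C := (1 : ℝ)) measure_closedBall_lt_top.ne).mono'
      ((measurable_ind (hE _)).sub (measurable_ind (hE _))).norm.aestronglyMeasurable
      (Eventually.of_forall fun x => by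
        rw [norm_abs_eq_norm]; exact abs_ind_sub_le _ _ _ _)
  have hcau : ∀ R : ℝ, 0 < R → ∀ e > 0, ∃ N, ∀ j ≥ N, ∀ k ≥ N,
      ∫ x in closedBall 0 R, |f j x - f k x| ≤ e := by
    intro R hR e he
    obtain ⟨C, hC⟩ := hb (R + 2)
    obtain ⟨m, hm⟩ := exists_nat_one_div_lt (show 0 < e / (4 * (C + 1)) by
      have := (hC 0).1; positivity)
    have hC0 := (hC 0).1
    have hCm : C * (1 / ((m : ℝ) + 1)) ≤ e / 4 := by
      have h4 : 1 / ((m : ℝ) + 1) * (4 * (C + 1)) < e := (lt_div_iff₀ (by positivity)).1 hm
      have h5 : 0 < 1 / ((m : ℝ) + 1) := by positivity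
      nlinarith
    have hsm : ∀ k, Continuous fun x => smooth (E (σ₀ k)) m x := fun k => by
      obtain ⟨L, hL⟩ := smooth_equicont n m
      refine (LipschitzWith.of_dist_le_mul (K := |L|.toNNReal) fun x y => ?_).continuous
      rw [Real.dist_eq, Real.coe_toNNReal _ (abs_nonneg L)]
      exact (hL _ (hE _) x y).trans (mul_le_mul_of_nonneg_right (le_abs_self L) dist_nonneg)
    have hfin : IsFiniteMeasure (volume.restrict (closedBall (0 : Space n) R)) :=
      ⟨by rw [Measure.restrict_apply_univ]; exact measure_closedBall_lt_top⟩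
    have hGm : AEStronglyMeasurable (G m) (volume.restrict (closedBall (0 : Space n) R)) :=
      aestronglyMeasurable_of_tendsto_ae atTop (fun k => (hsm k).aestronglyMeasurable)
        (Eventually.of_forall (hG m))
    have hto : Tendsto (fun k => ∫ x in closedBall (0 : Space n) R,
        |smooth (E (σ₀ k)) m x - G m x|) atTop (𝓝 0) := by
      rw [← integral_zero (Space n) ℝ (μ := volume.restrict (closedBall (0 : Space n) R))]
      refine tendsto_integral_of_dominated_convergence (fun _ => 1)
        (fun k => ((hsm k).aestronglyMeasurable.sub hGm).norm) (integrable_const 1)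
        (fun k => Eventually.of_forall fun x => ?_) (Eventually.of_forall fun x => ?_)
      · rw [norm_abs_eq_norm, Real.norm_eq_abs]
        have h1 := smooth_mem (hE (σ₀ k)) m x
        have h2 : G m x ∈ Set.Icc (0 : ℝ) 1 := isClosed_Icc.mem_of_tendsto (hG m x)
          (Eventually.of_forall fun k => smooth_mem (hE _) m x)
        rw [abs_le]; constructor <;> linarith [h1.1, h1.2, h2.1, h2.2]
      · have := ((hG m x).sub_const (G m x)).abs
        rwa [sub_self, abs_zero] at this
    obtain ⟨N, hN⟩ := eventually_atTop.1 (hto.eventually_lt_const (show (0 : ℝ) < e / 4 by positivity))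
    refine ⟨N, fun j hj k hk => ?_⟩
    have hs : ∀ l, IntegrableOn (fun x => |smooth (E (σ₀ l)) m x - f l x|) (closedBall 0 R) ∧
        IntegrableOn (fun x => |smooth (E (σ₀ l)) m x - G m x|) (closedBall 0 R) := fun l => by
      constructor <;> refine (integrable_const (1 : ℝ)).mono' ?_ (Eventually.of_forall fun x => ?_)
      · exact ((hsm l).measurable.sub (measurable_ind (hE _))).norm.aestronglyMeasurable
      · rw [norm_abs_eq_norm, Real.norm_eq_abs, abs_le]
        have h1 := smooth_mem (hE (σ₀ l)) m x
        constructor <;> linarith [h1.1, h1.2, ind_nonneg (E (σ₀ l)) x, ind_le_one (E (σ₀ l)) x]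
      · exact ((hsm l).aestronglyMeasurable.sub hGm).norm
      · rw [norm_abs_eq_norm, Real.norm_eq_abs]
        have h1 := smooth_mem (hE (σ₀ l)) m x
        have h2 : G m x ∈ Set.Icc (0 : ℝ) 1 := isClosed_Icc.mem_of_tendsto (hG m x)
          (Eventually.of_forall fun k => smooth_mem (hE _) m x)
        rw [abs_le]; constructor <;> linarith [h1.1, h1.2, h2.1, h2.2]
    have hmono : ∫ x in closedBall (0 : Space n) R, |f j x - f k x| ≤
        ∫ x in closedBall (0 : Space n) R, ((|smooth (E (σ₀ j)) m x - f j x| +
          |smooth (E (σ₀ j)) m x - G m x|) + (|smooth (E (σ₀ k)) m x - f k x| +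
          |smooth (E (σ₀ k)) m x - G m x|)) := by
      refine integral_mono (hfint R j k) (((hs j).1.add (hs j).2).add ((hs k).1.add (hs k).2))
        fun x => ?_
      have := abs_sub_le (f j x) (smooth (E (σ₀ j)) m x) (f k x)
      have := abs_sub_le (smooth (E (σ₀ j)) m x) (G m x) (f k x)
      have := abs_sub_le (G m x) (smooth (E (σ₀ k)) m x) (f k x)
      have := abs_sub_comm (f j x) (smooth (E (σ₀ j)) m x)
      have := abs_sub_comm (G m x) (smooth (E (σ₀ k)) m x)
      linarith
    rw [integral_add (f := fun x => |smooth (E (σ₀ j)) m x - f j x| + |smooth (E (σ₀ j)) m x - G m x|)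
      (g := fun x => |smooth (E (σ₀ k)) m x - f k x| + |smooth (E (σ₀ k)) m x - G m x|)
      ((hs j).1.add (hs j).2) ((hs k).1.add (hs k).2), integral_add (hs j).1 (hs j).2,
      integral_add (hs k).1 (hs k).2] at hmono
    linarith [(smooth_close (hE (σ₀ j)) hR (hC _) m).trans hCm,
      (smooth_close (hE (σ₀ k)) hR (hC _) m).trans hCm, hN j hj, hN k hk]
  choose N hN using fun l : ℕ => hcau ((l : ℝ) + 1) (by positivity) ((1 / 2) ^ l) (by positivity)
  set τ : ℕ → ℕ := fun l => (∑ i ∈ Finset.range (l + 1), N i) + l with hτ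
  have hτm : StrictMono τ := strictMono_nat_of_lt_succ fun l => by
    simp only [hτ, Finset.sum_range_succ _ (l + 1)]; omega
  have hτN : ∀ i l, i ≤ l → N i ≤ τ l := fun i l hil =>
    (Finset.single_le_sum (fun j _ => Nat.zero_le (N j)) (Finset.mem_range.2 (by omega))).trans
      (Nat.le_add_right _ _)
  set F : ℕ → Space n → ℝ≥0∞ := fun l =>
    (closedBall (0 : Space n) ((l : ℝ) + 1)).indicator fun x =>
      ENNReal.ofReal |f (τ l) x - f (τ (l + 1)) x| with hF
  have hFm : ∀ l, Measurable (F l) := fun l =>
    ((((measurable_ind (hE _)).sub (measurable_ind (hE _))).norm).ennreal_ofReal).indicator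
      measurableSet_closedBall
  have hFb : ∀ l, ∫⁻ x, F l x ≤ ENNReal.ofReal ((1 / 2) ^ l) := fun l => by
    rw [hF, lintegral_indicator measurableSet_closedBall,
      ← ofReal_integral_eq_lintegral_ofReal (hfint _ _ _) (Eventually.of_forall fun x => abs_nonneg _)]
    exact ENNReal.ofReal_le_ofReal
      (hN l _ (hτN l l le_rfl) _ (hτN l (l + 1) (Nat.le_succ l)))
  have hsum : ∫⁻ x, ∑' l, F l x ≠ ⊤ := by
    rw [lintegral_tsum fun l => (hFm l).aemeasurable]
    refine ne_top_of_le_ne_top ?_ (ENNReal.tsum_le_tsum hFb)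
    rw [← ENNReal.ofReal_tsum_of_nonneg (fun l => by positivity) summable_geometric_two]
    exact ENNReal.ofReal_ne_top
  have hae := ae_lt_top (Measurable.tsum hFm) hsum
  set σ : ℕ → ℕ := σ₀ ∘ τ with hσ
  refine ⟨σ, ⋃ K, ⋂ k ∈ Set.Ici K, E (σ k), hσ₀.comp hτm,
    MeasurableSet.iUnion fun K => MeasurableSet.biInter (Set.to_countable _) fun k _ => hE _, ?_⟩
  filter_upwards [hae] with x hx
  have h0 := ENNReal.tendsto_atTop_zero_of_tsum_ne_top hx.ne
  have hev : ∀ᶠ l in atTop, ind (E (σ l)) x = ind (E (σ (l + 1))) x := by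
    filter_upwards [h0.eventually_lt_const zero_lt_one,
      (tendsto_natCast_atTop_atTop (R := ℝ)).eventually_ge_atTop ‖x‖] with l hl hlx
    by_contra hne
    have hmem : x ∈ closedBall (0 : Space n) ((l : ℝ) + 1) := by
      rw [mem_closedBall, dist_zero_right]; linarith
    rw [hF] at hl
    simp only [Set.indicator_of_mem hmem, hf] at hl
    have h1 : |ind (E (σ₀ (τ l))) x - ind (E (σ₀ (τ (l + 1)))) x| = 1 := by
      simp only [hσ, Function.comp_apply] at hne
      rcases ind_mem (E (σ₀ (τ l))) x with h2 | h2 <;>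
        rcases ind_mem (E (σ₀ (τ (l + 1)))) x with h3 | h3 <;> simp_all
    rw [h1, ENNReal.ofReal_one] at hl
    exact lt_irrefl _ hl
  obtain ⟨K, hK⟩ := eventually_atTop.1 hev
  refine eventually_atTop.2 ⟨K, fun k hk => ?_⟩
  have hconst : ∀ i ≥ K, ind (E (σ i)) x = ind (E (σ K)) x := fun i hi => by
    induction i, hi using Nat.le_induction with
    | base => rfl
    | succ i hi ih => rw [← hK i hi, ih]
  rw [hconst k hk]
  by_cases hx' : x ∈ E (σ K)
  · have : x ∈ ⋃ K, ⋂ k ∈ Set.Ici K, E (σ k) := by
      refine Set.mem_iUnion.2 ⟨K, Set.mem_iInter₂.2 fun i hi => ?_⟩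
      by_contra h
      have := hconst i hi
      simp [ind, h, hx'] at this
    rw [ind, ind, Set.indicator_of_mem hx', Set.indicator_of_mem this]
  · have : x ∉ ⋃ K, ⋂ k ∈ Set.Ici K, E (σ k) := fun h => by
      obtain ⟨K', hK'⟩ := Set.mem_iUnion.1 h
      have h1 := Set.mem_iInter₂.1 hK' (max K K') (Set.mem_Ici.2 (le_max_right _ _))
      have := hconst (max K K') (le_max_left _ _)
      simp [ind, h1, hx'] at this
    rw [ind, ind, Set.indicator_of_notMem hx', Set.indicator_of_notMem this]

end

end Vale.Agent.P219.Univ.Exist
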